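import Vale.Agent.P226h14.Del6

/-- For every `d` and every `k ≥ 5`, every measurable partition of `ℝ^d` into `k` cells can be
replaced by a measurable partition into `5` cells such that the sum of the squared norms of the
Gaussian first moments of the old partition is at most the larger of `9 / (8 π)` and the value of
the new one. Hence `M(d,k) ≤ max (9 / (8 π)) (M(d,5))` for all `k ≥ 5`. -/
theorem Vale.Agent.Results.P226.AReduceFive.result {d k : ℕ} (hk : 5 ≤ k)
    (A : Fin k → Set (EuclideanSpace ℝ (Fin d)))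
    (hm : ∀ i, MeasurableSet (A i))
    (hd : Pairwise (Function.onFun Disjoint A))
    (hc : ⋃ i, A i = Set.univ) :
    ∃ B : Fin 5 → Set (EuclideanSpace ℝ (Fin d)),
      (∀ i, MeasurableSet (B i)) ∧ Pairwise (Function.onFun Disjoint B) ∧ ⋃ i, B i = Set.univ ∧
      ∑ i, ‖∫ x in A i, x ∂(ProbabilityTheory.stdGaussian (EuclideanSpace ℝ (Fin d)))‖ ^ 2 ≤
        max (9 / (8 * Real.pi))
          (∑ i, ‖∫ x in B i, x ∂(ProbabilityTheory.stdGaussian (EuclideanSpace ℝ (Fin d)))‖ ^ 2) := by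
  rcases eq_or_lt_of_le hk with rfl | hk6
  · exact ⟨A, hm, hd, hc, le_max_right _ _⟩
  · obtain ⟨A', hA', hle⟩ := Vale.Agent.P226h14.reduction6 (k := k) hk6 (A := A) ⟨hm, hd, hc⟩
    obtain ⟨B, hB, hF⟩ := Vale.Agent.P226h14.cond_step_fin (by norm_num)
      Vale.Agent.P226h14.delstep6 hA'
    exact ⟨B, hB.1, hB.2.1, hB.2.2, hle.trans hF⟩
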