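import Vale.Agent.P226h15.Conj
import Vale.Agent.P226h15.K4
import Vale.Agent.P226h14.Del6
import Vale.Agent.P226h14.Del5

/-- **The Gaussian propeller conjecture.** For all `d` and `k`, every measurable partition
`A_1, ..., A_k` of `ℝ^d` satisfies `∑ |∫_{A_i} x dγ_d(x)|² ≤ 9/(8π)`. -/
theorem Vale.Agent.Results.P226.AReduceGConjecture.result {d k : ℕ}
    (A : Fin k → Set (EuclideanSpace ℝ (Fin d)))
    (hm : ∀ i, MeasurableSet (A i))
    (hd : Pairwise (Function.onFun Disjoint A))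
    (hc : ⋃ i, A i = Set.univ) :
    ∑ i, ‖∫ x in A i, x ∂(ProbabilityTheory.stdGaussian (EuclideanSpace ℝ (Fin d)))‖ ^ 2 ≤
      9 / (8 * Real.pi) :=
  Vale.Agent.P226h15.conj_of_steps Vale.Agent.P226h14.delstep6 Vale.Agent.P226h14.delstep5
    (fun _ hA => Vale.Agent.P226h15.part4_le hA) (A := A) ⟨hm, hd, hc⟩
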