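import Vale.Agent.Lib.P226Zonoid

/-- Every measurable partition of `ℝ^d` into finitely many cells that is invariant under the
central symmetry `x ↦ -x` (the reflected image of each cell is again a cell) satisfies
`∑ |z(A_i)|^2 ≤ 1/π`. This is below the propeller value `9/(8π)`. -/
theorem Vale.Agent.Results.P226.CentralSymmetric.result {d k : ℕ}
    (A : Fin k → Set (EuclideanSpace ℝ (Fin d)))
    (hm : ∀ i, MeasurableSet (A i))
    (hd : Pairwise (Function.onFun Disjoint A))
    (hc : ⋃ i, A i = Set.univ)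
    (hsym : ∀ i, ∃ j, ∀ x, x ∈ A j ↔ -x ∈ A i) :
    ∑ i, ‖∫ x in A i, x ∂(ProbabilityTheory.stdGaussian (EuclideanSpace ℝ (Fin d)))‖ ^ 2 ≤
      1 / Real.pi :=
  Vale.Agent.P226.antipodal_bound A hm hd hc hsym
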