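import Vale.Agent.Lib.P226Zonoid

/-- For every measurable partition of `ℝ^d` into `k` cells, the sum of the squared norms of the
Gaussian first moments of the cells is at most `3k / (2π(k+1))`. -/
theorem Vale.Agent.Results.P226.KCellBound.result {d k : ℕ}
    (A : Fin k → Set (EuclideanSpace ℝ (Fin d)))
    (hm : ∀ i, MeasurableSet (A i))
    (hd : Pairwise (Function.onFun Disjoint A))
    (hc : ⋃ i, A i = Set.univ) :
    ∑ i, ‖∫ x in A i, x ∂(ProbabilityTheory.stdGaussian (EuclideanSpace ℝ (Fin d)))‖ ^ 2 ≤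
      3 * k / (2 * Real.pi * (k + 1)) :=
  Vale.Agent.P226.kcell_bound A hm hd hc
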