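import Vale.Agent.P226h6.Stage1

/-- For every `d` and every `k ≥ 31`, every measurable partition of `ℝ^d` into `k` cells can be
replaced by a measurable partition into `31` cells with at least as large a value of the sum of
the squared norms of the Gaussian first moments. Hence `M(d,k) = M(d,31)` for all `k ≥ 31`. -/
theorem Vale.Agent.Results.P226.Reduction31.result {d k : ℕ} (hk : 31 ≤ k)
    (A : Fin k → Set (EuclideanSpace ℝ (Fin d)))
    (hm : ∀ i, MeasurableSet (A i))
    (hd : Pairwise (Function.onFun Disjoint A))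
    (hc : ⋃ i, A i = Set.univ) :
    ∃ B : Fin 31 → Set (EuclideanSpace ℝ (Fin d)),
      (∀ i, MeasurableSet (B i)) ∧ Pairwise (Function.onFun Disjoint B) ∧ ⋃ i, B i = Set.univ ∧
      ∑ i, ‖∫ x in A i, x ∂(ProbabilityTheory.stdGaussian (EuclideanSpace ℝ (Fin d)))‖ ^ 2 ≤
        ∑ i, ‖∫ x in B i, x ∂(ProbabilityTheory.stdGaussian (EuclideanSpace ℝ (Fin d)))‖ ^ 2 := by
  obtain ⟨B, hB, hle⟩ := Vale.Agent.P226h6.main_reduction1 hk (A := A) ⟨hm, hd, hc⟩
  exact ⟨B, hB.1, hB.2.1, hB.2.2, hle⟩
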